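import Vale.Agent.P038.Defs

/-! The certificate data. -/

namespace Vale.Agent.P038

def rw00 : List (List (List Row)) :=
  [[[⟨3203401, 5, []⟩],
  [], [], []],
  [[], [], [], []],
  [[], [], [], []],
  [[], [], [], []]]

def lw00 : List (List (List ℤ)) :=
  [[[17270, 451, (-1732), 3037, 548, (-1977), (-107), (-317), (-82), 202, 1099],
  [],
  [],
  []],
  [[],
  [],
  [],
  []],
  [[],
  [],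
  [],
  []],
  [[],
  [],
  [],
  []]]

def rw01 : List (List (List Row)) :=
  [[[], [], [], []],
  [[], [], [⟨66496244, 0, [[.bu 0]]⟩, ⟨60298367, 0, [[.bz 0], [.bx 1, .ix 2]]⟩, ⟨52615911, 0, [[.bz 0], [.bx 1, .iz 3]]⟩, ⟨1586792, 0, [[.bz 0], [.bx 1, .bz 1, .iz 3]]⟩],
  [⟨48301625, 0, [[.bz 0], [.bx 1, .ix 3, .iz 3]]⟩, ⟨18807637, 0, [[.bu 0]]⟩, ⟨15344003, 0, [[.bz 0], [.bu 0], [.bx 1, .ix 3]]⟩, ⟨9588395, 0, [[.bu 1]]⟩, ⟨9330683, 0, [[.bz 0]]⟩, ⟨7833295, 1, [[.bz 0], [.bz 1, .ix 3, .iz 3]]⟩]],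
  [[], [], [], []],
  [[], [], [], []]]

def lw01 : List (List (List ℤ)) :=
  [[[],
  [],
  [],
  []],
  [[],
  [],
  [31498, 12672, (-10060), (-489), (-1841), (-1178), 1901, 0, 0, 0, 0],
  [(-21698), (-8713), 62, (-3760), (-3233), 1227, 203, 163, (-257), (-487), (-872)]],
  [[],
  [],
  [],
  []],
  [[],
  [],
  [],
  []]]

def rw02 : List (List (List Row)) :=
  [[[], [], [], []],
  [[], [], [], []],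
  [[], [⟨42518582, 0, [[.bu 0], [.bx 1, .ix 3, .iz 3]]⟩, ⟨42170905, 0, [[.bu 0], [.bx 1, .bz 1, .ix 3]]⟩, ⟨7571229, 0, [[.bu 0]]⟩, ⟨2611774, 0, [[.bu 0], [.bx 1, .ix 3]]⟩],
  [⟨47273284, 0, [[.bu 0]]⟩, ⟨35154395, 0, [[.bu 1]]⟩, ⟨11001216, 0, [[.bu 1], [.bu 2, .ix 3]]⟩, ⟨9181527, 0, [[.bz 0], [.bu 2, .ix 2]]⟩, ⟨8000281, 0, [[.bz 0]]⟩, ⟨6796217, 3, [[.bz 0], [.bu 1]]⟩, ⟨6603182, 0, [[.bz 0], [.bu 2, .ix 2, .iz 3]]⟩, ⟨5601086, 1, [[.bu 2], [.bz 1, .iz 3]]⟩],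
  [⟨67292862, 0, [[.bu 0]]⟩, ⟨18454080, 0, [[.bu 1]]⟩, ⟨10990125, 1, [[.bz 0], [.ix 3]]⟩, ⟨10006229, 0, [[.bz 0], [.bu 2, .ix 3, .iz 3]]⟩, ⟨9873506, 1, [[.bz 0], [.bz 1, .ix 3, .iz 3]]⟩, ⟨3465992, 1, [[.bz 1], [.bu 2, .ix 3]]⟩]],
  [[], [], [], []]]

def lw02 : List (List (List ℤ)) :=
  [[[],
  [],
  [],
  []],
  [[],
  [],
  [],
  []],
  [[],
  [(-48623), (-18897), 15437, 0, 0, 0, 0, 0, 0, 0, 0],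
  [61934, 0, 0, 0, 0, 0, 0, 0, 0, 0, 0],
  [5625, 26748, 0, 0, 0, 0, 0, 0, 0, 0, 0]],
  [[],
  [],
  [],
  []]]

def rw03 : List (List (List Row)) :=
  [[[], [], [], []],
  [[], [], [], []],
  [[], [], [], []],
  [[], [⟨43257980, 0, [[.bu 0], [.bx 1, .ix 3, .iz 3]]⟩, ⟨25890899, 0, [[.bu 0]]⟩, ⟨11272698, 0, [[.bu 0], [.bu 2, .ix 3, .iz 3]]⟩, ⟨10485645, 0, [[.bu 1]]⟩, ⟨3356860, 0, [[.bu 0], [.bz 1, .bu 2, .ix 3]]⟩, ⟨584512, 0, [[.bu 1], [.bz 1, .bu 2, .ix 3]]⟩, ⟨168534, 0, [[.bz 1], [.bu 0], [.bu 2, .ix 3, .iz 3]]⟩],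
  [⟨42401072, 0, [[.bu 0], [.bx 1, .ix 3, .iz 3]]⟩, ⟨24131143, 0, [[.bu 0]]⟩, ⟨3106976, 0, [[.bu 1]]⟩, ⟨2350795, 1, [[.bu 0], [.bx 1, .ix 3]]⟩, ⟨2198418, 0, [[.bz 0]]⟩, ⟨1750399, 5, []⟩, ⟨1516373, 0, [[.bu 0], [.bx 1, .bz 1, .ix 3]]⟩],
  [⟨55637418, 0, [[.bu 0], [.bx 1, .ix 3, .iz 3]]⟩, ⟨27727082, 0, [[.bu 0]]⟩, ⟨10947483, 1, [[.bz 0], [.ix 2]]⟩, ⟨9568411, 0, [[.bu 1]]⟩, ⟨331601, 1, [[.bz 1], [.ix 3]]⟩, ⟨260167, 1, [[.bz 0], [.bz 1, .iz 3]]⟩]]]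

def lw03 : List (List (List ℤ)) :=
  [[[],
  [],
  [],
  []],
  [[],
  [],
  [],
  []],
  [[],
  [],
  [],
  []],
  [[],
  [(-12690), 14653, (-3433), 3146, 4456, 34, (-496), (-250), 1666, 0, 0],
  [6858, (-15001), 767, 12488, 0, 0, 0, 0, 0, 0, 0],
  [2991, (-23903), 3278, 3060, 4986, 0, 0, 0, 0, 0, 0]]]

def rw04 : List (List (List Row)) :=
  [[[], [], [], []],
  [[], [], [], []],
  [[], [], [], []],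
  [[], [⟨6123525, 0, [[.bu 0]]⟩, ⟨5211445, 1, [[.bu 0], [.bx 1, .ix 3]]⟩, ⟨3239834, 0, [[.bu 1]]⟩, ⟨728391, 5, []⟩],
  [⟨8891553, 0, [[.bu 0]]⟩, ⟨3127919, 0, [[.bz 0], [.ix 2]]⟩, ⟨2596946, 0, [[.bu 1]]⟩, ⟨1934398, 1, [[.bu 0], [.bu 2, .ix 3, .iz 3]]⟩],
  [⟨5057177, 0, [[.bu 0]]⟩, ⟨2120117, 0, [[.bu 1]]⟩, ⟨1936148, 1, [[.bu 0], [.bx 1, .ix 3]]⟩, ⟨1837346, 1, [[.bu 0], [.bu 2, .ix 3, .iz 3]]⟩, ⟨1140731, 1, [[.bz 0], [.bz 1, .ix 3, .iz 3]]⟩, ⟨1002335, 0, [[.bz 0]]⟩, ⟨609225, 1, [[.bz 1], [.ix 3]]⟩, ⟨381432, 5, []⟩, ⟨171044, 1, [[.bz 0], [.ix 3]]⟩]]]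

def lw04 : List (List (List ℤ)) :=
  [[[],
  [],
  [],
  []],
  [[],
  [],
  [],
  []],
  [[],
  [],
  [],
  []],
  [[],
  [1997, 8164, (-2056), (-6544), 423, 3366, 0, 0, 0, 0, 0],
  [6530, (-803), (-423), 3892, 26, (-2329), (-205), (-273), (-7), 1374, 0],
  [2083, 6318, (-1696), (-3015), (-255), 1800, (-90), 1833, 0, 0, 0]]]

def rw10 : List (List (List Row)) :=
  [[[], [], [], []],
  [[], [], [], []],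
  [[], [⟨6898818, 0, [[.bx 0], [.bx 2, .bz 1, .ix 3]]⟩],
  [], []],
  [[], [⟨35763349, 4, []⟩],
  [], []]]

def lw10 : List (List (List ℤ)) :=
  [[[],
  [],
  [],
  []],
  [[],
  [],
  [],
  []],
  [[],
  [103277, 0, 0, 0, 0, 0, 0, 0, 0, 0, 0, 0, 0, 0, 0, 0, 0, 0, 0, 0, 0, 0, 0, 0, 0, 0, 0],
  [],
  []],
  [[],
  [19346, (-221), (-1177), (-12043), 3201, (-10144), 1126, (-699), (-210), 898, 122, 40, 177, 185, (-264), (-624), 170, (-501), (-816), (-201), 208, (-53), (-544), (-497), (-118), (-328), (-173)],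
  [],
  []]]

def rw11 : List (List (List Row)) :=
  [[[⟨47157897, 0, [[.bz 0]]⟩, ⟨19107664, 0, [[.bz 0], [.bx 1, .bu 1, .ix 3]]⟩, ⟨6812854, 4, []⟩, ⟨3282828, 0, [[.bu 1]]⟩, ⟨1942045, 1, [[.bz 0]]⟩, ⟨1758822, 1, [[.bu 1]]⟩, ⟨1248908, 0, [[.bu 0]]⟩, ⟨1232940, 1, [[.bu 0]]⟩, ⟨1216338, 1, [[.bu 2]]⟩, ⟨950653, 1, [[.bz 1]]⟩],
  [], [], []],
  [[], [], [⟨57280249, 0, [[.bz 0], [.bx 1, .bu 1, .iz 3]]⟩, ⟨50385073, 0, [[.bz 0]]⟩, ⟨26043752, 0, [[.bx 0]]⟩, ⟨8865622, 0, [[.bx 0], [.bx 1, .bu 1, .ix 3]]⟩, ⟨5968061, 0, [[.bz 0], [.bx 1, .bz 1, .iz 3]]⟩, ⟨3345171, 0, [[.bz 0], [.bx 1, .iz 3]]⟩, ⟨2309706, 0, [[.bz 0], [.bx 1, .bz 2, .iz 3]]⟩, ⟨1701607, 0, [[.bu 0]]⟩],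
  [⟨63556596, 0, [[.bu 0]]⟩, ⟨58815080, 0, [[.bz 0], [.bu 1, .ix 3, .iz 3]]⟩, ⟨27717360, 0, [[.bz 0], [.bx 1, .bu 1, .iz 3]]⟩, ⟨24925076, 0, [[.bx 0], [.bz 0], [.bu 1, .ix 3]]⟩, ⟨20217361, 0, [[.bz 0]]⟩, ⟨12729336, 0, [[.bz 0], [.bz 1, .bu 1, .ix 3]]⟩, ⟨7430119, 0, [[.bu 1]]⟩]],
  [[], [], [⟨45353064, 0, [[.bz 0]]⟩, ⟨1808344, 0, [[.bu 0]]⟩],
  [⟨56896992, 0, [[.bz 0], [.bz 1, .bu 1, .iz 3]]⟩, ⟨41309682, 0, [[.bu 0]]⟩, ⟨37043525, 0, [[.bz 0]]⟩, ⟨32211195, 0, [[.bx 0], [.bz 0], [.bu 1, .ix 3]]⟩, ⟨10799255, 0, [[.bx 0]]⟩, ⟨7006291, 0, [[.bx 0], [.bz 0], [.bx 2, .bu 1, .ix 3]]⟩, ⟨1117026, 0, [[.bz 0], [.bu 1, .ix 3, .iz 3]]⟩]],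
  [[], [⟨115067310, 4, []⟩],
  [⟨63400606, 4, []⟩, ⟨1425665, 0, [[.bx 0], [.bz 0, .bu 0, .ix 3]]⟩],
  [⟨47247477, 0, [[.bz 0]]⟩, ⟨16065076, 0, [[.bx 0], [.bz 0], [.bu 1, .ix 3, .iz 3]]⟩, ⟨8039429, 0, [[.bx 0], [.bz 0]]⟩, ⟨6930134, 4, []⟩, ⟨5682726, 0, [[.bx 0], [.bz 0], [.bx 1, .bu 1, .iz 3]]⟩, ⟨2479112, 0, [[.bu 1]]⟩, ⟨1386231, 0, [[.bx 0], [.bz 0], [.bx 1, .ix 3, .iz 3]]⟩, ⟨1229007, 1, [[.bz 0]]⟩, ⟨1187441, 0, [[.bx 0], [.bz 0], [.bu 2, .ix 3, .iz 3]]⟩, ⟨1133993, 0, [[.bu 0]]⟩, ⟨1062994, 1, [[.bu 1]]⟩, ⟨912774, 1, [[.bu 2]]⟩, ⟨790897, 1, [[.bu 0]]⟩, ⟨740361, 1, [[.bz 1]]⟩]]]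

def lw11 : List (List (List ℤ)) :=
  [[[(-5127), (-8127), 9707, 6952, 1141, (-748), (-815), 37, (-103), (-1010), 100, 9457, 0, 0, 0, 0, 0, 0, 0, 0, 0, 0, 0, 0, 0, 0, 0],
  [],
  [],
  []],
  [[],
  [],
  [7868, 10654, 64625, 0, 0, 0, 0, 0, 0, 0, 0, 0, 0, 0, 0, 0, 0, 0, 0, 0, 0, 0, 0, 0, 0, 0, 0],
  [3548, (-12991), 4096, 19447, (-14024), (-4933), (-955), 496, (-466), (-2751), (-204), 191, (-162), 3034, (-269), (-246), (-1057), 1405, (-197), (-99), (-1254), (-483), 1438, 0, 0, 0, 0]],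
  [[],
  [11592, (-14055), (-44264), 16460, (-8386), (-7895), (-3998), (-174), (-2445), (-1994), (-754), (-362), (-838), 9229, 0, 0, 0, 0, 0, 0, 0, 0, 0, 0, 0, 0, 0],
  [(-32640), 2315, 19322, (-824), 5122, 29182, 0, 0, 0, 0, 0, 0, 0, 0, 0, 0, 0, 0, 0, 0, 0, 0, 0, 0, 0, 0, 0],
  [(-11861), (-17420), (-11578), 24861, (-794), 8233, (-2445), 180, (-809), (-4233), (-626), 224, (-151), 2357, 7317, 0, 0, 0, 0, 0, 0, 0, 0, 0, 0, 0, 0]],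
  [[],
  [4392, (-25772), 762, 29208, (-124), 7353, (-4791), 550, (-732), (-3951), (-149), 434, 237, 1325, 1401, (-630), (-750), 1137, 655, (-420), (-1239), (-539), 211, 1363, 0, 0, 0],
  [(-2461), (-4684), 14231, (-44076), (-25294), (-12293), 22284, 0, 0, 0, 0, 0, 0, 0, 0, 0, 0, 0, 0, 0, 0, 0, 0, 0, 0, 0, 0],
  [1407, (-9666), 1572, 4251, 6114, (-2810), (-2344), (-604), (-98), (-417), (-555), (-44), 9388, 0, 0, 0, 0, 0, 0, 0, 0, 0, 0, 0, 0, 0, 0]]]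

def rw12 : List (List (List Row)) :=
  [[[], [], [], []],
  [[], [], [⟨112131358, 0, [[.bu 0]]⟩, ⟨75202545, 0, [[.bz 0], [.bx 1, .bz 1, .iz 3]]⟩, ⟨52663355, 0, [[.bx 0], [.bx 1, .bu 1, .ix 3]]⟩, ⟨39512464, 0, [[.bx 0]]⟩, ⟨29494747, 3, [[.bx 0], [.bz 0], [.bu 0]]⟩, ⟨19393178, 0, [[.bz 0]]⟩, ⟨14884171, 2, [[.bx 0], [.bz 0], [.bu 0]]⟩, ⟨10404802, 0, [[.bz 0], [.bx 1, .iz 3]]⟩, ⟨5978649, 0, [[.bz 0], [.bx 1, .bz 2, .iz 3]]⟩],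
  [⟨183567385, 0, [[.bu 0]]⟩, ⟨58963312, 0, [[.bu 1]]⟩, ⟨44000737, 0, [[.bz 0], [.bx 1, .ix 3, .iz 3]]⟩, ⟨29009949, 0, [[.bz 0], [.bx 1, .bz 1, .iz 3]]⟩, ⟨16968782, 0, [[.bz 0], [.bu 2, .ix 3, .iz 3]]⟩, ⟨14321959, 1, [[.bz 0], [.bz 1, .iz 3]]⟩, ⟨7734028, 1, [[.bz 0], [.bz 1, .ix 3]]⟩, ⟨2633515, 0, [[.bx 0]]⟩]],
  [[], [⟨128501873, 4, []⟩, ⟨56803926, 0, [[.bz 0]]⟩, ⟨47190767, 0, [[.bx 0], [.bz 1, .bu 1, .ix 3]]⟩, ⟨44662358, 0, [[.bx 0], [.bx 1, .bz 1, .ix 3]]⟩, ⟨13693531, 0, [[.bz 0], [.bz 1, .bu 2, .iz 3]]⟩, ⟨9617112, 0, [[.bx 0]]⟩, ⟨9090266, 0, [[.bu 0]]⟩, ⟨6846182, 0, [[.bz 0], [.bz 1, .iz 3]]⟩, ⟨2812029, 0, [[.bx 0], [.bz 1, .bu 2, .ix 3]]⟩],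
  [⟨57777281, 0, [[.bz 0]]⟩, ⟨38188321, 4, []⟩, ⟨6950803, 0, [[.bx 0]]⟩, ⟨4561856, 0, [[.bx 0], [.bz 0, .bu 0, .ix 3]]⟩, ⟨3535639, 0, [[.bu 0]]⟩],
  [⟨150992967, 0, [[.bu 0]]⟩, ⟨78572696, 0, [[.bu 1]]⟩, ⟨49061673, 0, [[.bz 0]]⟩, ⟨19883757, 0, [[.bz 0], [.bu 2, .ix 3, .iz 3]]⟩, ⟨9603047, 1, [[.bz 0], [.bz 1, .ix 3, .iz 3]]⟩, ⟨3483935, 0, [[.bz 0], [.bz 1, .ix 3, .iz 3]]⟩, ⟨2973720, 0, [[.bx 0]]⟩, ⟨528160, 0, [[.bz 0], [.ix 3, .iz 3]]⟩]],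
  [[], [⟨234502247, 4, []⟩, ⟨91350380, 0, [[.bu 0]]⟩, ⟨77523999, 0, [[.bx 0], [.bu 1, .ix 3, .iz 3]]⟩, ⟨39767889, 0, [[.bz 0], [.bu 2]]⟩, ⟨17135175, 1, [[.bx 0], [.bx 1, .ix 3, .iz 3]]⟩, ⟨15047310, 1, [[.bx 0], [.bx 1, .iz 3]]⟩, ⟨15024778, 0, [[.bx 0], [.bz 1, .bu 1, .ix 3]]⟩, ⟨14225589, 5, []⟩, ⟨8336213, 0, [[.bx 0]]⟩, ⟨5993179, 0, [[.bx 0], [.bz 0], [.bz 1, .bu 2, .iz 3]]⟩, ⟨5114719, 0, [[.bx 0], [.bz 0, .bu 0, .ix 3]]⟩, ⟨2082854, 1, [[.bx 0], [.bx 1, .bu 1, .iz 3]]⟩, ⟨965280, 0, [[.bx 0], [.bz 1, .ix 3, .iz 3]]⟩],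
  [⟨85865033, 4, []⟩, ⟨39493113, 0, [[.bx 0]]⟩, ⟨35101513, 0, [[.bz 0], [.bu 2]]⟩, ⟨31799739, 1, [[.bx 0], [.bx 1, .ix 3, .iz 3]]⟩, ⟨15775286, 1, [[.bx 0], [.bx 1, .bu 1, .ix 3]]⟩, ⟨11620313, 0, [[.bx 0], [.bz 0, .bu 0, .ix 3]]⟩, ⟨8166047, 0, [[.bz 0]]⟩, ⟨6691915, 5, []⟩, ⟨6210514, 0, [[.bu 0]]⟩, ⟨6062635, 1, [[.bx 0]]⟩, ⟨4039119, 0, [[.bx 0], [.bu 1, .ix 3, .iz 3]]⟩, ⟨3611152, 1, [[.bx 0], [.bx 1, .ix 3]]⟩, ⟨3337338, 0, [[.bu 1]]⟩, ⟨3331367, 0, [[.bx 0], [.bx 1, .ix 3, .iz 3]]⟩],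
  [⟨52715387, 4, []⟩, ⟨50669004, 0, [[.bz 0]]⟩, ⟨28578156, 0, [[.bx 0]]⟩, ⟨19279004, 0, [[.bx 0], [.bz 0]]⟩, ⟨12893382, 0, [[.bx 0], [.bx 1, .bz 0, .bu 0]]⟩, ⟨11966953, 0, [[.bu 0]]⟩, ⟨11930312, 1, [[.bx 0]]⟩, ⟨10370039, 1, [[.bx 0], [.bx 1, .ix 3, .iz 3]]⟩, ⟨8780433, 0, [[.bx 0], [.bz 0], [.bx 1, .ix 3, .iz 3]]⟩, ⟨4821009, 0, [[.bx 0], [.bz 0], [.bu 2, .ix 3, .iz 3]]⟩, ⟨4117410, 1, [[.bz 0]]⟩, ⟨1647389, 1, [[.bx 1]]⟩, ⟨1541763, 1, [[.bu 0]]⟩, ⟨1279872, 1, [[.bz 1]]⟩, ⟨1139654, 1, [[.bu 2]]⟩]]]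

def lw12 : List (List (List ℤ)) :=
  [[[],
  [],
  [],
  []],
  [[],
  [],
  [(-68154), (-3837), 3890, (-23446), 16794, (-4766), 1363, 238, (-816), 4146, 940, 590, 1277, (-5783), (-1110), (-3679), 474, (-808), (-194), (-182), 1039, 309, (-346), (-343), 1239, 0, 0],
  [(-33257), 69888, 0, 0, 0, 0, 0, 0, 0, 0, 0, 0, 0, 0, 0, 0, 0, 0, 0, 0, 0, 0, 0, 0, 0, 0, 0]],
  [[],
  [8325, (-19514), (-47532), 24804, (-12032), (-6432), (-3712), 3822, (-4489), (-78), (-432), 27, (-534), 2594, 246, 1710, (-1478), 4578, 0, 0, 0, 0, 0, 0, 0, 0, 0],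
  [(-22159), (-42980), 46588, (-9881), (-765), (-12328), 2541, 4349, (-1855), 10057, 0, 0, 0, 0, 0, 0, 0, 0, 0, 0, 0, 0, 0, 0, 0, 0, 0],
  [(-18756), 29670, 6147, (-8428), 36540, 0, 0, 0, 0, 0, 0, 0, 0, 0, 0, 0, 0, 0, 0, 0, 0, 0, 0, 0, 0, 0, 0]],
  [[],
  [15495, (-24280), 8367, 62450, 0, 0, 0, 0, 0, 0, 0, 0, 0, 0, 0, 0, 0, 0, 0, 0, 0, 0, 0, 0, 0, 0, 0],
  [(-4147), 6780, 54330, (-6692), (-27463), (-708), (-4495), 15104, 0, 0, 0, 0, 0, 0, 0, 0, 0, 0, 0, 0, 0, 0, 0, 0, 0, 0, 0],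
  [4428, 11832, 6618, (-8753), 5596, (-4173), 876, (-1582), 336, 393, 9940, 0, 0, 0, 0, 0, 0, 0, 0, 0, 0, 0, 0, 0, 0, 0, 0]]]

def rw13 : List (List (List Row)) :=
  [[[], [], [], []],
  [[], [], [], []],
  [[], [⟨48584607, 0, [[.bu 0]]⟩, ⟨25457219, 0, [[.bu 1]]⟩, ⟨13408908, 0, [[.bx 0], [.bz 1, .bu 1, .ix 3]]⟩, ⟨13188203, 0, [[.bx 0]]⟩, ⟨11322282, 0, [[.bx 0], [.bx 1, .bz 1, .ix 3]]⟩, ⟨11003998, 0, [[.bz 0]]⟩, ⟨2511596, 3, [[.bx 0], [.bz 0]]⟩, ⟨1171682, 0, [[.bu 0], [.bz 1, .bu 1, .iz 3]]⟩, ⟨1076793, 0, [[.bu 0], [.bu 1, .iz 3]]⟩, ⟨894489, 0, [[.bu 0], [.bz 2, .bu 1, .iz 3]]⟩, ⟨883938, 0, [[.bu 0], [.bx 2, .bu 1, .iz 3]]⟩],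
  [⟨41575251, 0, [[.bu 0]]⟩, ⟨28300801, 0, [[.bu 1]]⟩, ⟨16475582, 0, [[.bu 0], [.bz 1, .bu 1, .iz 3]]⟩, ⟨7473295, 0, [[.bu 0], [.bu 1, .iz 3]]⟩, ⟨6658382, 0, [[.bx 0]]⟩, ⟨6058823, 0, [[.bz 0], [.bu 0], [.bz 1, .iz 3]]⟩, ⟨5961515, 0, [[.bz 0]]⟩, ⟨1431253, 0, [[.bx 0], [.bx 1, .bu 1, .ix 3]]⟩],
  [⟨93687371, 0, [[.bu 0]]⟩, ⟨74464061, 0, [[.bu 1]]⟩, ⟨5629796, 1, [[.bz 0], [.bz 1, .ix 3, .iz 3]]⟩, ⟨1763912, 1, [[.bz 1]]⟩, ⟨1326383, 1, [[.bz 0], [.bz 1, .iz 3]]⟩]],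
  [[], [⟨123222741, 4, []⟩, ⟨94893175, 0, [[.bu 0]]⟩, ⟨28351446, 2, [[.bx 0], [.bu 0]]⟩, ⟨18463707, 0, [[.bx 0], [.bx 1, .ix 3, .iz 3]]⟩, ⟨9868229, 0, [[.bx 0], [.bu 1, .ix 3, .iz 3]]⟩, ⟨8703100, 0, [[.bx 0], [.bz 1, .bu 1, .ix 3]]⟩, ⟨7954151, 1, [[.bx 0], [.bx 1, .ix 3, .iz 3]]⟩, ⟨7355954, 0, [[.bx 0], [.bu 0], [.bu 1, .iz 3]]⟩, ⟨4331595, 0, [[.bu 1], [.bx 1, .iz 3]]⟩, ⟨1534270, 0, [[.bx 0], [.bx 1, .bz 1, .ix 3]]⟩],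
  [⟨116318624, 4, []⟩, ⟨80734053, 0, [[.bu 0]]⟩, ⟨19133458, 0, [[.bx 0], [.bu 1, .ix 3, .iz 3]]⟩, ⟨13332175, 2, [[.bx 0], [.bu 0]]⟩, ⟨8508892, 1, [[.bx 0], [.bx 1, .ix 3, .iz 3]]⟩, ⟨7078834, 0, [[.bx 0], [.bx 1, .ix 3, .iz 3]]⟩, ⟨5307828, 3, [[.bx 0], [.bu 0]]⟩, ⟨2888646, 0, [[.bu 1], [.bx 1, .iz 3]]⟩, ⟨1634182, 1, [[.bx 0], [.bx 1, .ix 3]]⟩],
  [⟨88700295, 4, []⟩, ⟨69272387, 0, [[.bu 0]]⟩, ⟨30973922, 0, [[.bx 0], [.bu 1, .ix 3, .iz 3]]⟩, ⟨17509371, 2, [[.bx 0], [.bu 0]]⟩, ⟨9369025, 0, [[.bx 0], [.bx 1, .ix 3, .iz 3]]⟩, ⟨8146135, 1, [[.bx 0], [.bx 1, .ix 3, .iz 3]]⟩, ⟨6468484, 0, [[.bz 0]]⟩, ⟨3378528, 0, [[.bx 0]]⟩, ⟨1935579, 1, [[.bx 0], [.bu 1, .ix 3, .iz 3]]⟩, ⟨1480818, 1, [[.bz 0], [.bz 1, .ix 3, .iz 3]]⟩, ⟨1243132, 1, [[.bx 0], [.bx 1, .iz 3]]⟩, ⟨1145960, 0, [[.bz 0],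 [.bz 1, .ix 3, .iz 3]]⟩, ⟨1099526, 0, [[.bu 1]]⟩, ⟨933395, 1, [[.bx 0]]⟩, ⟨735459, 1, [[.bz 0]]⟩, ⟨702680, 1, [[.bx 0], [.bx 1, .bz 1, .iz 3]]⟩]]]

def lw13 : List (List (List ℤ)) :=
  [[[],
  [],
  [],
  []],
  [[],
  [],
  [],
  []],
  [[],
  [45088, 34631, (-18858), 9237, (-16535), 3285, (-313), (-747), 1547, (-1427), (-1134), (-1199), (-1974), 5495, 721, 6623, 0, 0, 0, 0, 0, 0, 0, 0, 0, 0, 0],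
  [25609, (-36876), (-5165), (-16353), 3510, 7509, 2737, (-520), 2164, 1825, 80, (-446), (-272), (-3198), (-130), 1680, 898, (-1080), 660, 81, 1148, 1821, 0, 0, 0, 0, 0],
  [27194, (-59754), (-1259), (-20709), 6941, 4606, 565, (-101), 1251, 4347, 257, (-479), (-155), (-3646), (-1975), 789, 1318, (-1030), 401, 905, 2381, 0, 0, 0, 0, 0, 0]],
  [[],
  [(-8955), 13473, (-30825), (-4473), 6946, 26546, 984, (-3004), 4723, (-3715), 209, 7, 235, (-4995), 738, 1046, 777, (-1244), 2988, 0, 0, 0, 0, 0, 0, 0, 0],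
  [(-13692), (-90), (-16835), (-9703), (-13644), 16137, 7399, (-1793), 12726, 0, 0, 0, 0, 0, 0, 0, 0, 0, 0, 0, 0, 0, 0, 0, 0, 0, 0],
  [(-2908), (-4345), (-21628), (-10471), (-16457), 4839, (-1364), (-626), (-1014), 2356, (-1051), (-583), (-564), (-1223), (-500), 1794, 5809, 0, 0, 0, 0, 0, 0, 0, 0, 0, 0]]]

def rw14 : List (List (List Row)) :=
  [[[], [], [], []],
  [[], [], [], []],
  [[], [], [], []],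
  [[], [⟨5520174, 0, [[.bx 0]]⟩, ⟨2985835, 1, [[.bx 0], [.bx 1, .ix 3, .iz 3]]⟩, ⟨1714337, 0, [[.bu 1]]⟩, ⟨1382028, 4, []⟩, ⟨914008, 0, [[.bu 0]]⟩, ⟨721566, 1, [[.bx 0], [.bx 1, .ix 3]]⟩],
  [⟨6104377, 0, [[.bx 0]]⟩, ⟨4005382, 1, [[.bx 0], [.bx 1, .ix 3, .iz 3]]⟩, ⟨1296913, 0, [[.bu 1]]⟩],
  [⟨5714968, 0, [[.bx 0]]⟩, ⟨4378652, 1, [[.bx 0], [.bx 1, .ix 3, .iz 3]]⟩, ⟨2736553, 0, [[.bu 1]]⟩, ⟨1131456, 0, [[.bx 0], [.bu 1, .ix 3]]⟩, ⟨1048201, 0, [[.bx 0], [.bx 1, .bu 1, .ix 3]]⟩, ⟨737729, 1, [[.bz 0], [.bz 1, .ix 3, .iz 3]]⟩, ⟨593465, 0, [[.bz 0]]⟩]]]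

def lw14 : List (List (List ℤ)) :=
  [[[],
  [],
  [],
  []],
  [[],
  [],
  [],
  []],
  [[],
  [],
  [],
  []],
  [[],
  [(-3189), 2987, 309, (-1519), 1063, (-390), (-479), 112, (-1767), (-122), (-59), (-124), (-171), (-544), 72, 612, (-45), 71, (-52), (-22), 78, (-14), (-56), 32, (-319), 1086, 0],
  [(-2891), 2999, 172, (-2144), (-441), 277, 740, 137, 483, 742, (-84), (-372), (-338), (-53), (-615), (-143), 255, (-324), (-913), 2586, 0, 0, 0, 0, 0, 0, 0],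
  [(-1045), 2883, (-2279), (-2192), 936, (-1102), 774, (-361), (-42), (-452), 60, 133, 141, (-295), 613, 83, (-302), (-217), 93, (-1049), (-409), 235, (-474), (-342), (-21), 78, 752]]]

def rw20 : List (List (List Row)) :=
  [[[], [], [], []],
  [[], [], [], []],
  [[], [], [], []],
  [[], [], [⟨101491895, 4, []⟩],
  []]]

def lw20 : List (List (List ℤ)) :=
  [[[],
  [],
  [],
  []],
  [[],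
  [],
  [(-20543), (-7137), 31192, 6225, 1632, 9646, 5964, (-4500), (-9230), 610, 1290, 81, 449, 854, 916, (-1841), (-1125), (-931), (-147), (-77), (-1201), 119, 140, 744, (-761), 51, (-314), (-633), 1705, 0, 0, 0, 0, 0],
  []],
  [[],
  [],
  [(-5664), 9417, (-903), (-6587), (-3354), (-6131), (-217), 589, 1099, 364, 30, (-44), 224, 345, (-270), (-959), (-1079), (-730), (-74), 638, (-437), 580, 415, 219, 1000, 2178, 0, 0, 0, 0, 0, 0, 0, 0],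
  []],
  [[],
  [],
  [(-38), 11178, (-2661), 885, (-7501), (-9716), 4509, (-2574), (-2830), (-608), (-1028), (-53), 73, 289, (-24), (-2268), 91, 832, 477, (-119), (-743), 20, (-669), (-898), 81, 553, (-90), (-86), 82, 43, (-163), 21, 953, 0],
  []]]

def rw21 : List (List (List Row)) :=
  [[[], [], [], []],
  [[], [], [], []],
  [[], [⟨71798702, 4, []⟩],
  [], []],
  [[], [⟨203562178, 4, []⟩],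
  [⟨169916978, 4, []⟩],
  [⟨6271800, 4, []⟩]]]

def lw21 : List (List (List ℤ)) :=
  [[[],
  [],
  [],
  []],
  [[],
  [],
  [86461, 0, 0, 0, 0, 0, 0, 0, 0, 0, 0, 0, 0, 0, 0, 0, 0, 0, 0, 0, 0, 0, 0, 0, 0, 0, 0, 0, 0, 0, 0, 0, 0, 0],
  [(-13080), (-26356), 14124, 11942, 8986, 23645, 0, 0, 0, 0, 0, 0, 0, 0, 0, 0, 0, 0, 0, 0, 0, 0, 0, 0, 0, 0, 0, 0, 0, 0, 0, 0, 0, 0]],
  [[],
  [(-29798), 4090, 10877, (-19964), (-115), (-6088), (-1016), 2318, 4141, (-48), 1821, (-27), 331, 961, 400, (-3033), (-995), (-532), 2263, (-570), (-509), 366, 3639, 0, 0, 0, 0, 0, 0, 0, 0, 0, 0, 0],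
  [37935, 43091, (-31020), (-12043), 1703, (-12901), (-8414), 8030, 15116, 0, 0, 0, 0, 0, 0, 0, 0, 0, 0, 0, 0, 0, 0, 0, 0, 0, 0, 0, 0, 0, 0, 0, 0, 0],
  [40930, (-5328), (-5421), 8571, (-3148), 5291, (-628), (-1807), 581, (-2312), (-875), (-279), (-1293), (-815), 918, 301, 8637, 0, 0, 0, 0, 0, 0, 0, 0, 0, 0, 0, 0, 0, 0, 0, 0, 0]],
  [[],
  [10711, 3957, 29616, (-1235), 5135, 10204, (-332), 536, (-1426), (-106), 2504, 62, 335, 907, 1776, (-1857), 363, (-2288), 579, 267, (-1223), (-227), 994, 741, (-1040), (-623), (-288), (-787), 321, (-161), (-266), (-237), (-438), 575],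
  [35981, 67740, 0, 0, 0, 0, 0, 0, 0, 0, 0, 0, 0, 0, 0, 0, 0, 0, 0, 0, 0, 0, 0, 0, 0, 0, 0, 0, 0, 0, 0, 0, 0, 0],
  [(-1532), (-761), 9023, (-2877), 1928, 3607, 547, (-989), (-693), 46, 642, (-704), (-1937), 9553, 0, 0, 0, 0, 0, 0, 0, 0, 0, 0, 0, 0, 0, 0, 0, 0, 0, 0, 0, 0]]]

def rw22 : List (List (List Row)) :=
  [[[⟨38013186, 0, [[.bz 0]]⟩, ⟨4917582, 0, [[.bu 0]]⟩, ⟨2665337, 1, [[.bz 0]]⟩, ⟨2554998, 4, []⟩, ⟨2044585, 1, [[.bu 0]]⟩, ⟨1638226, 1, [[.bu 2]]⟩, ⟨1184922, 1, [[.bu 1]]⟩, ⟨1102447, 1, [[.bz 1]]⟩, ⟨1074675, 5, []⟩],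
  [], [], []],
  [[], [], [⟨46111068, 0, [[.bz 0]]⟩, ⟨34812163, 0, [[.bu 0]]⟩, ⟨24031680, 4, []⟩, ⟨15158146, 0, [[.bx 0]]⟩, ⟨10077557, 1, [[.bz 0], [.bx 1, .bz 1, .iz 3]]⟩, ⟨7552585, 3, [[.bx 0], [.bz 0]]⟩, ⟨754602, 0, [[.bz 0], [.bx 1, .bu 2, .iz 3]]⟩],
  [⟨58974006, 0, [[.bu 0]]⟩, ⟨44520178, 0, [[.bz 0]]⟩, ⟨5690942, 0, [[.bz 0], [.bx 0, .bu 0, .iz 3]]⟩, ⟨5114382, 0, [[.bu 1]]⟩]],
  [[], [⟨22335360, 4, []⟩],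
  [⟨39930639, 0, [[.bz 0]]⟩, ⟨12986421, 3, [[.bx 0], [.bz 0], [.bu 1]]⟩, ⟨1479106, 4, []⟩, ⟨1011289, 0, [[.bu 0]]⟩, ⟨1001560, 0, [[.bu 1], [.bx 1, .bz 1, .bu 2]]⟩, ⟨981694, 0, [[.bu 1], [.bx 1, .bz 1, .ix 3]]⟩, ⟨876441, 0, [[.bu 1], [.bx 1, .bz 1]]⟩],
  [⟨77457662, 0, [[.bz 0]]⟩, ⟨11547559, 0, [[.bx 0]]⟩, ⟨10314388, 1, [[.bz 0], [.bz 1, .ix 3, .iz 3]]⟩, ⟨8319783, 0, [[.bu 0]]⟩, ⟨5229979, 1, [[.bz 0], [.bz 1, .bu 2, .iz 3]]⟩, ⟨5017750, 1, [[.bz 0], [.bz 1, .iz 3]]⟩, ⟨3317049, 1, [[.bz 0]]⟩, ⟨3123951, 0, [[.bx 0], [.bz 0], [.bu 2]]⟩]],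
  [[], [⟨93262542, 4, []⟩],
  [⟨17455229, 4, []⟩],
  [⟨39156219, 0, [[.bz 0]]⟩, ⟨10553220, 0, [[.bx 0], [.bz 0]]⟩, ⟨4987077, 0, [[.bu 0]]⟩, ⟨4719399, 0, [[.bz 0], [.bx 0, .bz 1, .bu 0]]⟩, ⟨2670217, 4, []⟩, ⟨1672159, 1, [[.bz 0]]⟩, ⟨1214469, 1, [[.bu 0]]⟩, ⟨1082152, 1, [[.bu 2]]⟩, ⟨884421, 1, [[.bz 1]]⟩]]]

def lw22 : List (List (List ℤ)) :=
  [[[(-3739), (-5516), 1865, (-469), (-395), 1053, 362, (-1938), (-2160), (-492), (-160), 10515, 0, 0, 0, 0, 0, 0, 0, 0, 0, 0, 0, 0, 0, 0, 0, 0, 0, 0, 0, 0, 0, 0],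
  [],
  [],
  []],
  [[],
  [],
  [17489, (-15893), (-40563), (-4363), 3459, 1127, (-6137), (-3155), 4477, 27, 44, 140, (-512), (-1465), (-1029), 8846, 0, 0, 0, 0, 0, 0, 0, 0, 0, 0, 0, 0, 0, 0, 0, 0, 0, 0],
  [4563, (-2058), (-15728), 2481, (-4194), (-1056), (-6417), 5015, 4599, (-1703), (-1112), 2, (-375), (-1204), (-689), 4388, (-172), (-1629), (-623), (-912), 2089, (-110), (-1566), (-1398), 405, (-106), 235, 1935, 0, 0, 0, 0, 0, 0]],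
  [[],
  [(-34023), (-5919), 10026, 3335, 2149, 11385, (-9268), 9416, 5269, (-1085), 996, (-34), (-196), (-875), 332, 3300, (-141), (-3895), (-768), (-1264), 4673, 0, 0, 0, 0, 0, 0, 0, 0, 0, 0, 0, 0, 0],
  [13178, 38299, (-25959), 38321, 0, 0, 0, 0, 0, 0, 0, 0, 0, 0, 0, 0, 0, 0, 0, 0, 0, 0, 0, 0, 0, 0, 0, 0, 0, 0, 0, 0, 0, 0],
  [13761, 25293, 9892, (-6637), (-11047), (-13711), 1445, (-2655), (-4321), (-2804), 944, 23, (-210), 247, 9039, 0, 0, 0, 0, 0, 0, 0, 0, 0, 0, 0, 0, 0, 0, 0, 0, 0, 0, 0]],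
  [[],
  [10856, (-24591), 14966, 11305, (-2908), 11849, (-2797), 707, (-4197), (-2249), 377, 7, (-312), (-912), 703, 3717, 1357, (-3317), (-506), (-259), 1314, (-371), (-1672), (-1149), 140, (-105), (-83), 147, (-822), (-156), 1364, 0, 0, 0],
  [(-349), 23341, (-19888), 23942, (-9915), (-9883), 19873, 0, 0, 0, 0, 0, 0, 0, 0, 0, 0, 0, 0, 0, 0, 0, 0, 0, 0, 0, 0, 0, 0, 0, 0, 0, 0, 0],
  [(-8271), (-684), 3939, (-4866), (-4124), (-4734), 556, (-1776), (-2638), (-1219), (-160), (-441), 10041, 0, 0, 0, 0, 0, 0, 0, 0, 0, 0, 0, 0, 0, 0, 0, 0, 0, 0, 0, 0, 0]]]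

def rw23 : List (List (List Row)) :=
  [[[], [], [], []],
  [[], [], [⟨87881988, 0, [[.bu 0]]⟩, ⟨42504459, 0, [[.bu 1]]⟩, ⟨39118028, 0, [[.bz 0], [.bx 1, .bz 1, .iz 3]]⟩, ⟨18840202, 3, [[.bx 0], [.bz 0], [.bu 1]]⟩, ⟨18736583, 0, [[.bz 0], [.bx 1, .iz 3]]⟩, ⟨18204125, 4, []⟩, ⟨5484478, 0, [[.bz 0], [.bz 1, .iz 3]]⟩, ⟨3401236, 0, [[.bx 0], [.bx 1, .bu 2, .ix 3]]⟩, ⟨2139256, 3, [[.bx 0], [.bz 0]]⟩, ⟨864896, 0, [[.bz 0], [.bx 1, .bu 1, .iz 3]]⟩],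
  [⟨102702808, 0, [[.bu 0]]⟩, ⟨47290510, 0, [[.bu 1]]⟩, ⟨40689968, 0, [[.bz 0], [.bx 1, .bz 1, .iz 3]]⟩, ⟨17879440, 0, [[.bu 0], [.bu 1, .iz 3]]⟩, ⟨15717425, 3, [[.bx 0], [.bz 0], [.bu 1]]⟩, ⟨5508120, 1, [[.bz 0], [.bz 1, .ix 3]]⟩, ⟨4332258, 0, [[.bu 0], [.bz 1, .bu 1, .iz 3]]⟩]],
  [[], [⟨31524220, 0, [[.bx 0]]⟩, ⟨18699059, 0, [[.bu 0]]⟩, ⟨6801067, 0, [[.bz 0], [.bu 0], [.bu 1, .iz 3]]⟩, ⟨4431366, 0, [[.bz 0]]⟩, ⟨2597164, 0, [[.bz 0], [.bu 0], [.bz 2, .bu 1, .iz 3]]⟩, ⟨2387105, 0, [[.bu 1]]⟩, ⟨2260096, 0, [[.bx 0], [.bx 1, .bu 1, .ix 3]]⟩, ⟨2026650, 0, [[.bx 0], [.bx 1, .bz 1, .ix 3]]⟩, ⟨1808770, 0, [[.bz 0], [.bu 0], [.bz 1, .bu 1, .iz 3]]⟩, ⟨919640, 5, []⟩],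
  [⟨11504574, 0, [[.bx 0]]⟩, ⟨10051575, 0, [[.bz 0]]⟩, ⟨5144215, 0, [[.bu 1]]⟩, ⟨3023140, 4, []⟩, ⟨2609373, 0, [[.bu 0]]⟩],
  [⟨16099835, 0, [[.bz 0]]⟩, ⟨12428377, 0, [[.bu 0]]⟩, ⟨9143154, 0, [[.bx 0]]⟩, ⟨7778541, 0, [[.bu 1]]⟩, ⟨2036421, 5, []⟩, ⟨1569202, 0, [[.bz 0], [.bu 0]]⟩, ⟨1529003, 1, [[.bu 0]]⟩, ⟨1223544, 1, [[.bz 0]]⟩, ⟨761395, 1, [[.bz 1]]⟩]],
  [[], [⟨37424972, 0, [[.bu 0]]⟩, ⟨35370095, 0, [[.bx 0]]⟩, ⟨30647581, 4, []⟩, ⟨8390542, 0, [[.bx 0], [.bx 1, .bz 1, .ix 3]]⟩, ⟨6088731, 1, [[.bx 0], [.bx 1, .ix 3, .iz 3]]⟩, ⟨4174792, 2, [[.bx 0], [.bu 0]]⟩, ⟨1627458, 0, [[.bx 0], [.bz 0, .bu 0, .ix 3]]⟩, ⟨802619, 0, [[.bx 0], [.bz 1, .ix 3, .iz 3]]⟩, ⟨470856, 0, [[.bx 0], [.bx 1, .ix 3, .iz 3]]⟩],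
  [⟨35211571, 0, [[.bx 0]]⟩, ⟨25762059, 4, []⟩, ⟨23808019, 0, [[.bu 0]]⟩, ⟨6152335, 1, [[.bx 0], [.bx 1, .ix 3, .iz 3]]⟩, ⟨5681201, 1, [[.bx 0], [.bx 1, .ix 3]]⟩, ⟨3436998, 1, [[.bx 0], [.bx 1, .bu 2, .ix 3]]⟩, ⟨1928568, 1, [[.bx 1], [.bu 1], [.bu 2, .iz 3]]⟩, ⟨1533644, 1, [[.bx 0]]⟩, ⟨1523950, 0, [[.bx 0], [.bx 1, .bz 1, .ix 3]]⟩],
  [⟨43675518, 0, [[.bx 0]]⟩, ⟨18354599, 0, [[.bu 0]]⟩, ⟨11876612, 1, [[.bx 0], [.bx 1, .ix 3, .iz 3]]⟩, ⟨10926658, 1, [[.bx 0], [.bx 1, .ix 3]]⟩, ⟨5859631, 4, []⟩, ⟨5625989, 0, [[.bz 0]]⟩, ⟨2358687, 1, [[.bx 0]]⟩, ⟨1587368, 0, [[.bz 0], [.bz 1, .ix 3]]⟩, ⟨1042469, 1, [[.bx 1]]⟩, ⟨986817, 1, [[.bu 2]]⟩]]]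

def lw23 : List (List (List ℤ)) :=
  [[[],
  [],
  [],
  []],
  [[],
  [],
  [(-12846), (-6070), (-27097), 10358, 8980, 4997, 3625, (-5888), (-1016), 3693, (-1937), 81, (-104), (-364), (-1481), 1170, (-192), 4403, (-3415), 1487, (-257), (-28), (-1219), 3157, 0, 0, 0, 0, 0, 0, 0, 0, 0, 0],
  [(-20771), (-8037), (-37550), 1124, (-741), (-14892), 7750, (-6152), (-1492), 2201, (-3348), (-34), (-231), (-313), (-2342), (-1580), (-263), 7315, 0, 0, 0, 0, 0, 0, 0, 0, 0, 0, 0, 0, 0, 0, 0, 0]],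
  [[],
  [7219, 11891, 51765, 0, 0, 0, 0, 0, 0, 0, 0, 0, 0, 0, 0, 0, 0, 0, 0, 0, 0, 0, 0, 0, 0, 0, 0, 0, 0, 0, 0, 0, 0, 0],
  [19598, (-3146), 34867, 9157, 11171, 12446, (-7629), 18294, 0, 0, 0, 0, 0, 0, 0, 0, 0, 0, 0, 0, 0, 0, 0, 0, 0, 0, 0, 0, 0, 0, 0, 0, 0, 0],
  [11150, (-10387), 28598, (-13642), 7317, 8682, (-1872), (-2975), (-3533), 1529, 12693, 0, 0, 0, 0, 0, 0, 0, 0, 0, 0, 0, 0, 0, 0, 0, 0, 0, 0, 0, 0, 0, 0, 0]],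
  [[],
  [11208, (-13924), (-4157), (-15223), 10166, 559, (-4376), (-1888), (-72), 1942, (-35), 98, (-88), (-345), (-798), 2483, 161, 1052, (-876), 5038, 0, 0, 0, 0, 0, 0, 0, 0, 0, 0, 0, 0, 0, 0],
  [15005, 7205, (-4619), (-3578), 27586, 0, 0, 0, 0, 0, 0, 0, 0, 0, 0, 0, 0, 0, 0, 0, 0, 0, 0, 0, 0, 0, 0, 0, 0, 0, 0, 0, 0, 0],
  [6673, 4350, (-2320), (-3086), 8222, 4337, (-140), (-2897), (-2246), 14917, 0, 0, 0, 0, 0, 0, 0, 0, 0, 0, 0, 0, 0, 0, 0, 0, 0, 0, 0, 0, 0, 0, 0, 0]]]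

def rw24 : List (List (List Row)) :=
  [[[], [], [], []],
  [[], [], [], []],
  [[], [⟨96831568, 0, [[.bu 1]]⟩, ⟨73226564, 0, [[.bu 0]]⟩, ⟨8649796, 0, [[.bx 0]]⟩, ⟨8513522, 0, [[.bx 0], [.bu 2]]⟩, ⟨6653262, 0, [[.bu 1], [.bu 2, .iz 3]]⟩, ⟨4459324, 0, [[.bu 1], [.bu 2, .ix 3, .iz 3]]⟩, ⟨2962896, 0, [[.bu 1], [.bx 1, .bu 2, .iz 3]]⟩, ⟨2695787, 0, [[.bz 0]]⟩, ⟨1233320, 0, [[.bz 0], [.bx 1, .bz 1, .bu 0]]⟩, ⟨946028, 0, [[.bz 0], [.bz 1, .bu 0]]⟩, ⟨861910, 0, [[.bz 0], [.bz 1, .iz 3]]⟩, ⟨788635, 0, [[.bx 0], [.bx 1, .bu 2, .ix 3]]⟩, ⟨566589, 0, [[.bz 0], [.bu 0], [.bz 1, .iz 3]]⟩],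
  [⟨89785899, 0, [[.bu 1]]⟩, ⟨69069101, 0, [[.bu 0]]⟩, ⟨17567401, 0, [[.bu 1], [.bu 2, .iz 3]]⟩, ⟨12171824, 0, [[.bx 0], [.bu 2]]⟩, ⟨6259767, 0, [[.bu 1], [.bz 1, .bu 2, .iz 3]]⟩, ⟨4278346, 0, [[.bu 1], [.bx 2, .bu 2, .iz 3]]⟩, ⟨3567712, 1, [[.bz 0], [.bz 1, .iz 3]]⟩, ⟨3023356, 0, [[.bu 1], [.bu 2, .ix 3, .iz 3]]⟩, ⟨2891306, 0, [[.bu 1], [.bu 2, .ix 2, .iz 3]]⟩, ⟨2158827, 0, [[.bz 0]]⟩, ⟨1067446, 0, [[.bz 0], [.bx 1, .bz 1, .bu 0]]⟩, ⟨788288, 0, [[.bz 0], [.bx 1, .bu 0]]⟩, ⟨725640, 0, [[.bz 0], [.bx 1, .bz 2, .bu 0]]⟩],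
  [⟨92032558, 0, [[.bu 1]]⟩, ⟨70719928, 0, [[.bu 0]]⟩, ⟨25723637, 0, [[.bu 1], [.bu 2, .iz 3]]⟩, ⟨14017390, 0, [[.bx 0], [.bu 2]]⟩, ⟨7609164, 0, [[.bu 1], [.bz 1, .bu 2, .iz 3]]⟩, ⟨4006747, 1, [[.bz 0], [.bz 1, .iz 3]]⟩, ⟨1668388, 0, [[.bz 0], [.bx 1, .bz 1, .bu 0]]⟩, ⟨1177005, 0, [[.bz 0], [.bx 1, .bu 0]]⟩, ⟨1019406, 0, [[.bz 0], [.bx 1, .bz 2, .bu 0]]⟩]],
  [[], [⟨10513352, 0, [[.bx 0]]⟩, ⟨6905832, 1, [[.bx 0], [.bx 1, .ix 3, .iz 3]]⟩, ⟨4714075, 0, [[.bu 0]]⟩, ⟨3753865, 1, [[.bx 0], [.bx 1, .iz 3]]⟩, ⟨2878425, 1, [[.bx 1], [.bu 2, .iz 3]]⟩, ⟨215716, 0, [[.bx 0], [.bz 0], [.bu 1], [.iz 3]]⟩],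
  [⟨10237426, 0, [[.bx 0]]⟩, ⟨6642453, 1, [[.bx 0], [.bx 1, .ix 3, .iz 3]]⟩, ⟨4328453, 0, [[.bu 0]]⟩, ⟨3638789, 1, [[.bx 0], [.bx 1, .iz 3]]⟩, ⟨1262575, 1, [[.bu 2], [.bx 1, .iz 3]]⟩, ⟨169528, 0, [[.bx 0], [.bz 0], [.bu 1], [.iz 3]]⟩],
  [⟨10497658, 0, [[.bx 0]]⟩, ⟨6025769, 1, [[.bx 0], [.bx 1, .ix 3, .iz 3]]⟩, ⟨4479215, 1, [[.bx 0], [.bx 1, .iz 3]]⟩, ⟨4252063, 0, [[.bu 0]]⟩, ⟨682988, 1, [[.bu 2], [.bx 1, .iz 3]]⟩, ⟨484167, 0, [[.bx 0], [.bz 0], [.bu 1], [.iz 3]]⟩]]]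

def lw24 : List (List (List ℤ)) :=
  [[[],
  [],
  [],
  []],
  [[],
  [],
  [],
  []],
  [[],
  [6444, 2136, 16677, (-16576), (-7237), (-16526), 521, 2523, (-870), (-1470), 1381, (-156), 178, 639, 377, (-3332), (-708), (-1418), 6639, 0, 0, 0, 0, 0, 0, 0, 0, 0, 0, 0, 0, 0, 0, 0],
  [2700, 3119, 12035, (-9095), 5778, 1430, (-5681), 5877, 4426, 39, 1333, (-18), 347, 417, 151, (-82), (-1819), (-3193), (-646), 1123, (-110), 4150, 0, 0, 0, 0, 0, 0, 0, 0, 0, 0, 0, 0],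
  [1987, 3931, 12758, (-13157), 3782, 2661, (-5710), 3741, 2902, 1262, 2196, 12, 271, 286, (-20), 1129, (-1336), (-3292), (-205), 1025, 68, (-216), 1766, 1213, 2911, 0, 0, 0, 0, 0, 0, 0, 0, 0]],
  [[],
  [(-4488), 650, (-8916), 4449, (-5619), (-2464), 1819, (-1070), (-71), 93, (-917), (-58), (-147), (-183), (-334), (-397), 376, 1230, (-117), (-875), 85, (-319), (-402), 79, 209, 61, (-80), (-115), (-331), (-102), (-353), 1184, 0, 0],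
  [(-4038), 487, (-8211), 3786, (-2406), (-3685), 1849, 163, 55, 139, (-1358), (-110), (-191), (-230), (-569), (-909), 185, 1442, (-200), (-706), 171, (-21), (-631), (-361), 243, (-14), 2095, 0, 0, 0, 0, 0, 0, 0],
  [(-3877), 1026, (-7910), 3250, (-2364), (-3010), 1445, (-883), 132, (-1424), (-1112), (-39), (-121), (-113), (-145), (-355), 482, 1002, (-146), 14, (-367), 13, (-632), (-169), (-314), 73, (-408), 17, (-342), 1443, 0, 0, 0, 0]]]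

def rw30 : List (List (List Row)) :=
  [[[], [], [], []],
  [[], [], [], []],
  [[], [], [], [⟨1381620, 1, [[.bu 0], [.bz 1, .ix 3, .iz 3]]⟩]],
  [[], [], [], [⟨7997765, 4, []⟩, ⟨2721079, 1, [[.bx 0], [.bx 1, .ix 3, .iz 3]]⟩]]]

def lw30 : List (List (List ℤ)) :=
  [[[],
  [],
  [],
  []],
  [[],
  [],
  [],
  [(-810), (-4757), (-5026), (-11048), (-8856), (-7095), 1084, 5358, (-977), 2726, 6, 1232, (-30), (-5582), (-374), (-1261), (-97), (-826), (-10), 345, (-32), 103, (-210), (-1060), 195, (-368), (-704), (-534), (-72), (-242), (-90), 1187, 0, 0]],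
  [[],
  [],
  [],
  [(-4878), 1100, (-157), (-5392), 588, (-2581), 498, (-255), (-549), 1753, (-167), 106, 600, (-1374), 893, (-1318), 92, 1332, 802, (-427), 296, (-1042), (-106), (-628), 2734, 0, 0, 0, 0, 0, 0, 0, 0, 0]],
  [[],
  [],
  [],
  [(-5590), (-8013), (-3683), (-6416), 5357, (-3907), (-896), (-1222), (-793), (-1264), (-771), 3238, 1103, 851, (-837), (-488), (-77), 879, 353, (-685), (-285), (-2302), (-67), (-208), 23, (-112), (-371), (-20), 55, (-527), 306, 0, 1127, 0]]]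

def rw31 : List (List (List Row)) :=
  [[[], [], [], []],
  [[], [], [], []],
  [[], [], [⟨3953311, 4, []⟩],
  []],
  [[], [], [⟨34632105, 4, []⟩],
  [⟨4114491, 4, []⟩]]]

def lw31 : List (List (List ℤ)) :=
  [[[],
  [],
  [],
  []],
  [[],
  [],
  [(-47686), 3600, 11100, 8945, (-738), 2981, 314, (-773), (-1100), (-866), 932, (-2931), (-867), 2238, 85, 3, (-103), (-1484), (-669), 703, 129, 2004, (-267), (-385), (-97), (-77), (-430), (-303), 204, 1733, 0, 0, 0, 0],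
  [(-3439), 5045, 4624, 10738, (-6537), 4652, 991, 500, (-1209), 1747, 1934, (-6561), (-1292), 57, (-296), (-306), (-385), (-2062), (-1311), 900, (-57), 3386, 0, 0, 0, 0, 0, 0, 0, 0, 0, 0, 0, 0]],
  [[],
  [],
  [(-24297), 13627, (-30806), 10895, 10524, 4347, (-1085), (-5844), (-599), (-3807), 240, (-886), 268, 7272, 0, 0, 0, 0, 0, 0, 0, 0, 0, 0, 0, 0, 0, 0, 0, 0, 0, 0, 0, 0],
  [(-5866), 7364, 11781, 13, 8345, 3769, 147, (-9012), (-262), 612, (-597), (-1543), (-87), 1528, 2189, (-930), 180, 6202, 0, 0, 0, 0, 0, 0, 0, 0, 0, 0, 0, 0, 0, 0, 0, 0]],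
  [[],
  [],
  [(-43580), 9661, (-22335), (-6261), (-6449), (-5570), 2122, 3384, (-1110), 3216, 367, (-1097), (-744), (-3765), 1048, (-2337), 234, 320, 418, 849, 204, 2020, (-22), (-1008), 455, (-139), (-40), (-111), (-712), 35, (-926), 0, (-598), 854],
  [(-5026), 2780, 4706, (-55), (-2652), 1180, (-93), (-1554), (-669), 419, 139, (-1778), (-1453), (-425), 203, (-243), 11, (-1184), (-360), 5047, 0, 0, 0, 0, 0, 0, 0, 0, 0, 0, 0, 0, 0, 0]]]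

def rw32 : List (List (List Row)) :=
  [[[], [], [], []],
  [[], [], [], []],
  [[], [⟨56336787, 4, []⟩],
  [], []],
  [[], [⟨83485390, 4, []⟩],
  [⟨781593, 4, []⟩],
  []]]

def lw32 : List (List (List ℤ)) :=
  [[[],
  [],
  [],
  []],
  [[],
  [],
  [(-40724), (-4279), 6404, 1143, 18141, 0, 0, 0, 0, 0, 0, 0, 0, 0, 0, 0, 0, 0, 0, 0, 0, 0, 0, 0, 0, 0, 0, 0, 0, 0, 0, 0, 0, 0],
  [(-4116), (-16014), (-10871), (-7269), 3687, (-6302), 134, 4022, 494, (-5002), (-2240), 9090, 0, 0, 0, 0, 0, 0, 0, 0, 0, 0, 0, 0, 0, 0, 0, 0, 0, 0, 0, 0, 0, 0]],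
  [[],
  [67581, 0, 0, 0, 0, 0, 0, 0, 0, 0, 0, 0, 0, 0, 0, 0, 0, 0, 0, 0, 0, 0, 0, 0, 0, 0, 0, 0, 0, 0, 0, 0, 0, 0],
  [(-22994), 41427, 0, 0, 0, 0, 0, 0, 0, 0, 0, 0, 0, 0, 0, 0, 0, 0, 0, 0, 0, 0, 0, 0, 0, 0, 0, 0, 0, 0, 0, 0, 0, 0],
  [(-3151), (-1427), (-6068), (-9023), (-1683), (-4663), 1307, 4203, 1284, (-599), (-1822), 4263, (-1836), (-3478), 1238, (-195), 258, 1233, 5145, 0, 0, 0, 0, 0, 0, 0, 0, 0, 0, 0, 0, 0, 0, 0]],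
  [[],
  [37203, (-11442), 38579, 0, 0, 0, 0, 0, 0, 0, 0, 0, 0, 0, 0, 0, 0, 0, 0, 0, 0, 0, 0, 0, 0, 0, 0, 0, 0, 0, 0, 0, 0, 0],
  [(-30348), 15239, (-21491), 23431, 0, 0, 0, 0, 0, 0, 0, 0, 0, 0, 0, 0, 0, 0, 0, 0, 0, 0, 0, 0, 0, 0, 0, 0, 0, 0, 0, 0, 0, 0],
  [(-3179), (-7000), (-11949), (-1436), (-7254), (-3800), 832, 11778, 0, 0, 0, 0, 0, 0, 0, 0, 0, 0, 0, 0, 0, 0, 0, 0, 0, 0, 0, 0, 0, 0, 0, 0, 0, 0]]]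

def rw33 : List (List (List Row)) :=
  [[[⟨8043228, 0, [[.bu 0]]⟩, ⟨3573135, 0, [[.bu 1]]⟩, ⟨2936083, 0, [[.bz 0]]⟩, ⟨2270333, 1, [[.bu 0]]⟩, ⟨1143735, 1, [[.bu 1]]⟩, ⟨744440, 5, []⟩, ⟨681719, 1, [[.bz 0]]⟩],
  [], [], []],
  [[], [], [⟨30735182, 0, [[.bu 0]]⟩, ⟨8344469, 0, [[.bu 1]]⟩, ⟨4134060, 0, [[.bu 0], [.bu 1, .ix 3, .iz 3]]⟩, ⟨1968242, 4, []⟩, ⟨1353105, 1, [[.bz 0], [.bx 1, .bz 1, .iz 3]]⟩, ⟨582022, 1, [[.bz 0], [.bx 1, .iz 3]]⟩],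
  [⟨31249955, 0, [[.bu 0]]⟩, ⟨11772150, 0, [[.bu 0], [.bu 1, .ix 3, .iz 3]]⟩, ⟨6573901, 0, [[.bu 1]]⟩, ⟨4717551, 0, [[.bz 0]]⟩, ⟨1866119, 1, [[.bz 0], [.bx 1, .bz 1, .ix 3]]⟩]],
  [[], [⟨8505217, 4, []⟩],
  [⟨8331548, 0, [[.bu 0]]⟩, ⟨6056980, 0, [[.bz 0]]⟩, ⟨1182732, 0, [[.bu 1]]⟩, ⟨880160, 0, [[.bz 0], [.bu 0], [.bu 1, .iz 3]]⟩, ⟨763577, 0, [[.bx 0], [.bu 0], [.bx 1, .bu 1, .ix 3]]⟩],
  [⟨23120863, 0, [[.bu 0]]⟩, ⟨10257293, 0, [[.bz 0]]⟩, ⟨5251489, 0, [[.bu 1]]⟩, ⟨1510394, 1, [[.bu 0], [.bu 1, .iz 3]]⟩, ⟨1088456, 1, [[.bu 0]]⟩, ⟨987884, 0, [[.bu 0], [.bz 1, .bu 1, .iz 3]]⟩, ⟨856676, 0, [[.bu 0], [.bu 1, .iz 3]]⟩, ⟨720425, 0, [[.bu 0], [.bx 2, .bu 1, .iz 3]]⟩]],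
  [[], [⟨9634219, 4, []⟩],
  [], [⟨13778905, 0, [[.bu 0]]⟩, ⟨6310825, 0, [[.bz 0]]⟩, ⟨3618170, 0, [[.bu 1]]⟩, ⟨1005093, 0, [[.bu 0], [.bu 1, .ix 3, .iz 3]]⟩, ⟨941775, 0, [[.bz 0], [.bu 0], [.bu 1, .ix 3, .iz 3]]⟩]]]

def lw33 : List (List (List ℤ)) :=
  [[[7038, (-3176), 4717, 779, (-2033), (-403), (-794), (-100), (-1000), 1332, 10693, 0, 0, 0, 0, 0, 0, 0, 0, 0, 0, 0, 0, 0, 0, 0, 0, 0, 0, 0, 0, 0, 0, 0],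
  [],
  [],
  []],
  [[],
  [],
  [(-7225), 4335, (-3162), 12180, 3257, 13747, 0, 0, 0, 0, 0, 0, 0, 0, 0, 0, 0, 0, 0, 0, 0, 0, 0, 0, 0, 0, 0, 0, 0, 0, 0, 0, 0, 0],
  [2750, 6913, (-5620), 5488, 4511, 6735, (-1358), (-3047), 2366, (-1287), (-424), 383, 745, 2225, 231, 2622, 219, 675, (-45), (-776), 66, (-1699), (-187), 2881, 0, 0, 0, 0, 0, 0, 0, 0, 0, 0]],
  [[],
  [10880, (-4473), (-2134), (-484), (-5842), 860, (-1115), 1049, 3653, (-2248), (-1048), 2313, (-375), 350, 216, 6566, 0, 0, 0, 0, 0, 0, 0, 0, 0, 0, 0, 0, 0, 0, 0, 0, 0, 0],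
  [(-17820), 1241, 13705, (-4531), (-5813), (-1758), (-1049), 205, 11719, 0, 0, 0, 0, 0, 0, 0, 0, 0, 0, 0, 0, 0, 0, 0, 0, 0, 0, 0, 0, 0, 0, 0, 0, 0],
  [1427, 4334, 13361, (-6980), (-4167), (-2656), (-150), 739, (-1525), 11055, 0, 0, 0, 0, 0, 0, 0, 0, 0, 0, 0, 0, 0, 0, 0, 0, 0, 0, 0, 0, 0, 0, 0, 0]],
  [[],
  [129, (-10017), 7559, (-7344), (-6975), (-191), 1011, 3679, 2050, 3016, (-600), 1095, (-131), (-5413), 980, 1069, 280, 1096, 489, (-112), 295, (-100), 41, 121, (-148), (-119), 2299, 0, 0, 0, 0, 0, 0, 0],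
  [(-6977), (-10338), (-972), (-4351), (-2483), (-1228), 13576, 0, 0, 0, 0, 0, 0, 0, 0, 0, 0, 0, 0, 0, 0, 0, 0, 0, 0, 0, 0, 0, 0, 0, 0, 0, 0, 0],
  [(-2220), (-7045), 9435, (-5966), 3028, (-3188), (-2226), (-1633), (-967), 1014, (-50), 2046, 8492, 0, 0, 0, 0, 0, 0, 0, 0, 0, 0, 0, 0, 0, 0, 0, 0, 0, 0, 0, 0, 0]]]

def rw34 : List (List (List Row)) :=
  [[[], [], [], []],
  [[], [], [⟨4787030, 0, [[.bz 0]]⟩, ⟨4158082, 0, [[.bu 1], [.bu 2, .ix 3, .iz 3]]⟩, ⟨3983222, 0, [[.bu 1]]⟩, ⟨2646044, 0, [[.bz 0], [.bx 1, .bz 1, .iz 3]]⟩, ⟨1261633, 0, [[.bz 0], [.bx 1, .iz 3]]⟩, ⟨829620, 1, [[.bz 0], [.bx 1, .bz 1, .iz 3]]⟩, ⟨779805, 0, [[.bu 1], [.bu 2, .iz 3]]⟩, ⟨678532, 1, [[.bz 0], [.bz 1, .iz 3]]⟩],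
  [⟨6123219, 0, [[.bu 1], [.bu 2, .ix 3, .iz 3]]⟩, ⟨5980028, 0, [[.bu 1]]⟩, ⟨4653843, 0, [[.bz 0]]⟩, ⟨3207214, 1, [[.bz 0], [.bx 1, .bz 1, .iz 3]]⟩, ⟨1428513, 0, [[.bu 0]]⟩, ⟨1210755, 0, [[.bz 0], [.bx 1, .iz 3]]⟩, ⟨1158251, 0, [[.bz 0], [.bx 1, .ix 3, .iz 3]]⟩, ⟨404335, 0, [[.bx 0], [.bz 0], [.bx 1, .ix 3]]⟩]],
  [[], [⟨8941278, 0, [[.bu 1]]⟩, ⟨2920986, 0, [[.bu 0]]⟩, ⟨2326823, 0, [[.bx 0], [.bu 0], [.bu 2, .ix 3, .iz 3]]⟩, ⟨1547686, 1, [[.bu 0]]⟩, ⟨1527939, 0, [[.bz 0], [.bu 0], [.bu 2, .ix 3, .iz 3]]⟩, ⟨1429934, 0, [[.bz 0], [.bu 1], [.iz 3]]⟩, ⟨1357426, 0, [[.bz 0], [.bu 1], [.bu 2, .iz 3]]⟩, ⟨1160135, 1, [[.bu 1]]⟩, ⟨773279, 0, [[.bz 0], [.bu 1], [.bu 2, .ix 3, .iz 3]]⟩],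
  [⟨3406482, 0, [[.bu 1]]⟩, ⟨3027425, 0, [[.bz 0]]⟩, ⟨1084806, 0, [[.bx 0], [.bu 0], [.bu 2, .ix 3, .iz 3]]⟩],
  [⟨5145139, 0, [[.bu 1]]⟩, ⟨2824037, 1, [[.bu 0], [.bu 2, .iz 3]]⟩, ⟨2156043, 0, [[.bz 0]]⟩, ⟨1596953, 0, [[.bz 0], [.bu 0], [.bu 1, .ix 3]]⟩, ⟨888246, 0, [[.bz 0], [.bu 0], [.bz 1, .ix 3, .iz 3]]⟩]],
  [[], [⟨3720413, 0, [[.bu 0], [.bu 1, .ix 3]]⟩, ⟨3032139, 0, [[.bu 1]]⟩, ⟨2996987, 0, [[.bx 0]]⟩, ⟨2869594, 0, [[.bx 0], [.bu 0], [.bx 1, .ix 3, .iz 3]]⟩, ⟨890822, 0, [[.bu 0]]⟩],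
  [⟨2601658, 0, [[.bx 0]]⟩, ⟨2425309, 0, [[.bx 0], [.bu 0], [.bx 1, .ix 3, .iz 3]]⟩, ⟨2222334, 0, [[.bu 1]]⟩, ⟨1707221, 0, [[.bu 0], [.bu 1, .ix 3]]⟩, ⟨1244701, 0, [[.bu 0], [.bx 1, .bu 1, .ix 3]]⟩],
  [⟨2380978, 0, [[.bu 1]]⟩, ⟨2252838, 0, [[.bu 0], [.bu 1, .ix 3]]⟩, ⟨2126892, 0, [[.bx 0]]⟩, ⟨1891179, 0, [[.bx 0], [.bu 0], [.bx 1, .ix 3, .iz 3]]⟩, ⟨1285425, 0, [[.bu 0]]⟩, ⟨989242, 0, [[.bu 0], [.bx 1, .bu 1, .ix 3]]⟩, ⟨856006, 0, [[.bx 0], [.bu 0], [.bu 1, .ix 3]]⟩]]]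

def lw34 : List (List (List ℤ)) :=
  [[[],
  [],
  [],
  []],
  [[],
  [],
  [15311, (-780), 8016, 8600, 2818, 4641, (-1309), (-2554), (-79), (-2149), 692, (-1929), 91, 3198, (-1240), 930, (-798), (-1719), (-923), (-459), (-208), (-468), 27, 397, (-413), 110, (-176), 56, 1920, 0, 0, 0, 0, 0],
  [17852, (-1076), (-723), 6170, 3054, 2706, (-1642), (-1893), (-13), (-2269), 478, (-951), 323, 3105, (-1925), 1052, (-248), (-1661), (-945), (-488), (-525), (-728), 73, 636, (-966), 147, (-103), 112, 319, 126, 1691, 0, 0, 0]],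
  [[],
  [5289, 4272, (-8287), (-2036), 1547, (-1404), (-798), (-241), (-577), 534, 29, (-193), 473, 22, (-1125), (-739), 6458, 0, 0, 0, 0, 0, 0, 0, 0, 0, 0, 0, 0, 0, 0, 0, 0, 0],
  [182, 7824, (-1979), 189, (-511), 1546, 1221, (-482), 1475, 354, (-488), 37, (-408), (-710), 6926, 0, 0, 0, 0, 0, 0, 0, 0, 0, 0, 0, 0, 0, 0, 0, 0, 0, 0, 0],
  [2003, 5552, (-2953), 850, 188, 838, 2, (-1289), (-273), 678, 382, (-2069), (-55), (-277), (-618), (-687), (-356), 702, 283, 126, 3920, 0, 0, 0, 0, 0, 0, 0, 0, 0, 0, 0, 0, 0]],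
  [[],
  [(-2340), 1922, (-3354), (-1886), 1630, (-416), (-2070), (-79), 194, (-1), (-421), 1021, 149, (-531), (-249), 151, (-45), 674, 256, (-482), (-88), (-925), (-347), 216, (-101), (-250), (-117), 2007, 0, 0, 0, 0, 0, 0],
  [(-4168), 1564, (-4414), 226, 325, 246, (-180), (-311), (-595), 34, 3, (-650), (-259), (-65), (-507), (-136), (-299), 179, 60, (-339), (-367), (-206), 2924, 0, 0, 0, 0, 0, 0, 0, 0, 0, 0, 0],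
  [(-2952), 1136, (-3002), (-1560), 532, (-365), (-481), 269, 458, (-509), (-456), 883, (-650), (-439), (-358), 451, (-110), 397, 223, (-609), (-209), (-935), (-726), 38, (-238), 2601, 0, 0, 0, 0, 0, 0, 0, 0]]]

def rw40 : List (List (List Row)) :=
  [[[], [], [], []],
  [[], [], [], []],
  [[], [], [], []],
  [[], [], [], []]]

def lw40 : List (List (List ℤ)) :=
  [[[],
  [],
  [],
  []],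
  [[],
  [],
  [],
  [3618, (-1235), 1227, 1209, 906, (-362), 1179, (-2336), 121, 220, 405, (-204), (-208), (-654), (-286), (-70), (-473), (-324), (-719), 535, (-12), 509, 394, (-13), (-100), 1347, 0, 0, 0]],
  [[],
  [],
  [],
  [4757, 531, 574, 1795, 348, (-1070), 1185, (-1349), (-36), 57, 1093, (-418), (-490), (-852), (-584), (-558), (-897), (-745), (-878), (-297), 735, 1807, 0, 0, 0, 0, 0, 0, 0]],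
  [[],
  [],
  [],
  [762, 1151, 1243, (-1185), (-170), (-223), 1252, (-758), (-856), (-180), 243, (-108), (-128), (-785), (-243), 471, (-287), (-325), (-538), 296, 195, 503, 1594, 0, 0, 0, 0, 0, 0]]]

def rw41 : List (List (List Row)) :=
  [[[], [], [], []],
  [[], [], [], []],
  [[], [], [], []],
  [[], [], [], []]]

def lw41 : List (List (List ℤ)) :=
  [[[],
  [],
  [],
  []],
  [[],
  [],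
  [],
  [(-4460), (-1455), (-647), (-2552), (-757), 978, (-2437), 398, 142, (-204), (-659), 156, (-20), 443, (-98), (-1004), 51, 154, 515, (-1285), (-222), (-448), (-610), (-368), 12, (-823), (-176), 954, 0]],
  [[],
  [],
  [],
  [(-4149), 1980, (-1346), (-1734), (-1542), 2401, (-2376), (-122), (-204), (-541), (-2182), 80, 140, 455, (-7), (-240), 370, (-123), 1, (-576), (-276), (-797), (-34), (-163), (-479), (-328), 1011, 0, 0]],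
  [[],
  [],
  [],
  [(-7391), (-1172), 1502, (-3317), (-205), 2496, (-1188), (-2720), (-57), 201, (-1308), 476, 265, (-269), 105, (-385), 577, 342, 511, 180, (-1510), (-679), (-181), (-420), (-532), 97, (-50), (-87), 706]]]

def rw42 : List (List (List Row)) :=
  [[[], [], [], []],
  [[], [], [], []],
  [[], [], [⟨4701879, 4, []⟩],
  []],
  [[], [], [⟨7116546, 4, []⟩],
  []]]

def lw42 : List (List (List ℤ)) :=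
  [[[],
  [],
  [],
  []],
  [[],
  [],
  [(-26050), 1908, 3669, (-2508), (-387), (-2134), 8162, 0, 0, 0, 0, 0, 0, 0, 0, 0, 0, 0, 0, 0, 0, 0, 0, 0, 0, 0, 0, 0, 0],
  [8567, 3963, (-1904), 6133, (-7198), (-2400), 1999, 3270, (-502), (-1019), 1586, (-183), 16, 119, (-206), 875, (-33), (-233), 5, 401, (-134), (-184), 153, 1515, 0, 0, 0, 0, 0]],
  [[],
  [],
  [(-3288), 2504, (-3605), 11664, 0, 0, 0, 0, 0, 0, 0, 0, 0, 0, 0, 0, 0, 0, 0, 0, 0, 0, 0, 0, 0, 0, 0, 0, 0],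
  [10610, 4778, (-127), 3933, (-4699), (-1919), 3533, 1108, (-2285), (-491), 1483, (-350), 23, (-226), (-36), 1357, (-180), (-166), (-318), 2447, 0, 0, 0, 0, 0, 0, 0, 0, 0]],
  [[],
  [],
  [(-9272), 2372, (-4015), 4757, (-2526), (-1486), (-1062), 6833, 0, 0, 0, 0, 0, 0, 0, 0, 0, 0, 0, 0, 0, 0, 0, 0, 0, 0, 0, 0, 0],
  [10504, 465, 194, 4512, (-4441), (-3970), 3146, 2199, (-1662), (-288), 3634, 0, 0, 0, 0, 0, 0, 0, 0, 0, 0, 0, 0, 0, 0, 0, 0, 0, 0]]]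

def rw43 : List (List (List Row)) :=
  [[[], [], [], []],
  [[], [], [], []],
  [[], [], [], []],
  [[], [], [], []]]

def lw43 : List (List (List ℤ)) :=
  [[[],
  [],
  [],
  []],
  [[],
  [],
  [(-5035), (-3607), 12924, 0, 0, 0, 0, 0, 0, 0, 0, 0, 0, 0, 0, 0, 0, 0, 0, 0, 0, 0, 0, 0, 0, 0, 0, 0, 0],
  [(-6646), (-4634), 1486, (-4264), 10834, 0, 0, 0, 0, 0, 0, 0, 0, 0, 0, 0, 0, 0, 0, 0, 0, 0, 0, 0, 0, 0, 0, 0, 0]],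
  [[],
  [31455, 0, 0, 0, 0, 0, 0, 0, 0, 0, 0, 0, 0, 0, 0, 0, 0, 0, 0, 0, 0, 0, 0, 0, 0, 0, 0, 0, 0],
  [(-3077), 20481, 0, 0, 0, 0, 0, 0, 0, 0, 0, 0, 0, 0, 0, 0, 0, 0, 0, 0, 0, 0, 0, 0, 0, 0, 0, 0, 0],
  [(-3811), (-4464), 2604, (-3954), 8176, 773, 145, (-2913), 1217, 4103, 0, 0, 0, 0, 0, 0, 0, 0, 0, 0, 0, 0, 0, 0, 0, 0, 0, 0, 0]],
  [[],
  [21352, 108, 5381, (-5844), 375, (-1067), 4450, (-3396), (-893), (-190), 2201, (-11), 70, (-85), 201, 2880, 0, 0, 0, 0, 0, 0, 0, 0, 0, 0, 0, 0, 0],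
  [(-2193), 5956, (-456), (-3085), 741, 8950, 0, 0, 0, 0, 0, 0, 0, 0, 0, 0, 0, 0, 0, 0, 0, 0, 0, 0, 0, 0, 0, 0, 0],
  [(-6165), (-4707), 295, (-51), 6827, 147, (-1082), (-469), 5158, 0, 0, 0, 0, 0, 0, 0, 0, 0, 0, 0, 0, 0, 0, 0, 0, 0, 0, 0, 0]]]

def rw44 : List (List (List Row)) :=
  [[[⟨2597811, 0, [[.bu 1]]⟩, ⟨1548051, 1, [[.bu 0], [.bu 2, .ix 3]]⟩],
  [], [], []],
  [[], [], [⟨5392129, 0, [[.bu 1]]⟩, ⟨2989803, 1, [[.bu 0], [.bu 2, .iz 3]]⟩],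
  [⟨6133186, 0, [[.bu 1]]⟩, ⟨3499517, 1, [[.bu 0], [.bu 2, .ix 3]]⟩]],
  [[], [], [⟨2212465, 0, [[.bu 1]]⟩, ⟨1427230, 1, [[.bu 0], [.bu 2, .ix 3]]⟩],
  [⟨4766130, 0, [[.bu 1]]⟩, ⟨1513045, 1, [[.bu 0], [.bu 2, .iz 3]]⟩, ⟨1423175, 1, [[.bu 0], [.bu 2, .ix 3]]⟩]],
  [[], [], [], [⟨2564827, 0, [[.bu 1]]⟩, ⟨1392142, 1, [[.bu 0], [.bu 2, .ix 3]]⟩]]]

def lw44 : List (List (List ℤ)) :=
  [[[(-3539), (-409), (-595), (-13), 858, 328, (-750), 836, 146, 372, (-765), 185, 9, (-154), 2950, 0, 0, 0, 0, 0, 0, 0, 0, 0, 0, 0, 0, 0, 0],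
  [],
  [],
  []],
  [[],
  [],
  [(-2329), 434, (-1491), 560, 443, (-180), (-656), 843, 534, (-239), (-135), (-584), (-65), 3192, 0, 0, 0, 0, 0, 0, 0, 0, 0, 0, 0, 0, 0, 0, 0],
  [(-2751), (-338), (-2076), 1383, 2120, (-586), (-1075), 1012, 564, 44, (-326), (-442), (-205), 239, (-91), (-633), (-436), (-338), (-382), (-416), 2182, 0, 0, 0, 0, 0, 0, 0, 0]],
  [[],
  [(-3114), (-4680), (-1458), (-1553), 1993, 384, (-1005), 729, 709, 340, (-770), 375, (-165), (-196), 239, 130, 112, 182, 2497, 0, 0, 0, 0, 0, 0, 0, 0, 0, 0],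
  [(-3248), 568, (-204), (-381), (-28), 1019, (-868), 203, (-3), 145, (-833), (-170), (-476), (-591), 307, (-200), (-361), 2557, 0, 0, 0, 0, 0, 0, 0, 0, 0, 0, 0],
  [(-2684), 14, 185, (-1267), (-615), 967, (-540), (-429), (-132), (-127), (-597), 3515, 0, 0, 0, 0, 0, 0, 0, 0, 0, 0, 0, 0, 0, 0, 0, 0, 0]],
  [[],
  [(-6032), (-2576), (-88), (-192), 2458, (-962), (-565), 382, 717, 352, (-88), (-130), (-241), 146, (-30), (-417), (-345), (-52), (-262), (-9), 401, 548, (-40), 61, 1472, 0, 0, 0, 0],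
  [(-3230), (-562), (-149), (-1356), 18, 497, (-962), 53, 78, (-117), (-880), (-1202), 3284, 0, 0, 0, 0, 0, 0, 0, 0, 0, 0, 0, 0, 0, 0, 0, 0],
  [(-2975), (-872), 29, (-1427), 216, 301, (-609), 171, 21, (-36), (-729), (-202), (-445), (-155), 317, 386, 2611, 0, 0, 0, 0, 0, 0, 0, 0, 0, 0, 0, 0]]]

def cert : Cert where
  rw := [[rw00, rw01, rw02, rw03, rw04],
    [rw10, rw11, rw12, rw13, rw14],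
    [rw20, rw21, rw22, rw23, rw24],
    [rw30, rw31, rw32, rw33, rw34],
    [rw40, rw41, rw42, rw43, rw44]]
  lw := [[lw00, lw01, lw02, lw03, lw04],
    [lw10, lw11, lw12, lw13, lw14],
    [lw20, lw21, lw22, lw23, lw24],
    [lw30, lw31, lw32, lw33, lw34],
    [lw40, lw41, lw42, lw43, lw44]]

end Vale.Agent.P038
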